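import Crest.Agent.X212.Lix26.Defs
import Crest.Agent.X212.Ins26.Geo
import Crest.Agent.X212.Gl9.Main

/-!
# Row 212, LIX-PYL (helper42): the cross-sections of lens walls are round and flat
-/

set_option autoImplicit false
set_option linter.unusedSectionVars false
noncomputable section
open scoped Manifold ContDiff Topology Real
open Set Function Filter

namespace Crest.Agent.X212.Pyl42
open An M G75 Lns95 Dr59 Lix26
open Line51 (Ln)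
open Cyf70 (IC)
open Met55 (atx pbv pbv_rel ld_inv)
open Rod53 (S3')
open Rf65 (PY Psc)
open Ins26.On (L0 on0 F_band)

variable {Y Y' : Mf 3} {κ lam : Type} [Fintype κ] [Fintype lam] [DecidableEq lam]
  {C : Cy Y κ lam} {C' : Cy Y' κ lam} {cv : S3' → Y.M} (g : Y.M ≃ₘ^∞⟮Y.I, Y'.I⟯ Y'.M)

theorem cv4_comp (h : Cv4 cv) : Cv4 (g ∘ cv) :=
  ⟨fun y => (h.ld y).comp Y'.I _ (g.isLocalDiffeomorph _), g.surjective.comp h.sj,
    fun y y' => g.injective.eq_iff.trans (h.dk y y')⟩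

/-- a round lens space with a flat line -/
structure Lc (C : Cy Y κ lam) (cv : S3' → Y.M) : Prop where
  cv4 : Cv4 cv
  rc : RC Y.I cv C.F.e
  fl : ∀ y, C.L.F Y.I y = 0

theorem lc_iff (he : ∀ k y, mf Y.I Y'.I g y (atx C.F.e y k) = atx C'.F.e (g y) k)
    (hL : C'.L.pull Y.I Y'.I g = C.L) (ho : C'.L.On Y'.I univ) (h : Cv4 cv) :
    Lc C cv ↔ Lc C' (g ∘ cv) := by
  have h' := cv4_comp g h
  have e : ∀ k, pbv (𝓡 3) Y'.I (g ∘ cv) (C'.F.e k) = pbv (𝓡 3) Y.I cv (C.F.e k) := fun k => funext fun y =>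
    (ld_inv (h'.ld y)).injective ((pbv_rel (h'.ld y) _).trans (Eq.symm ((DFunLike.congr_fun
      (mf_comp ((g.isLocalDiffeomorph _).mdifferentiableAt ne0) ((h.ld y).mdifferentiableAt ne0)) _).trans
      ((congrArg (mf Y.I Y'.I g (cv y)) (pbv_rel (h.ld y) _)).trans (he k _)))))
  have r : RC Y.I cv C.F.e ↔ RC Y'.I (g ∘ cv) C'.F.e := by simp only [RC, e]
  have f : ∀ y, C.L.F Y.I y = pm Y.I Y'.I g (C'.L.F Y'.I) y := fun y => hL ▸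
    ho.F_pull isOpen_univ isOpen_univ ⟨fun _ _ => g.contMDiff _, mapsTo_univ _ _⟩ (mem_univ y)
  refine ⟨fun k => ⟨h', r.1 k.rc, fun y => ?_⟩, fun k => ⟨h, r.2 k.rc, fun y => ?_⟩⟩
  · obtain ⟨y, rfl⟩ := g.surjective y
    exact pm_inj (b := 0) (g.isLocalDiffeomorph y) (((f y).symm.trans (k.fl y)).trans (map_zero _).symm)
  · rw [f, pm_apply, k.fl, map_zero]

theorem Lc.py [CompactSpace Y.M] (h : Lc C cv) (hC : C.OK) : PY C.yd 0 := by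
  have S := Gl9.gp Y cv h.cv4.ld h.cv4.sj κ C.F h.rc
  have f : ∀ x s, Wz78.fL C.yd.B C.yd.G x s = 0 := fun x s => by
    rw [Cy.yd_G hC.ln]
    refine (fL_geo (Cy.ln_on hC.ln) _ hC.B s).trans ?_
    rw [Cy.ln, hC.ln.F_pull isOpen_univ isOpen_univ ⟨fun _ _ => contMDiffAt_fst, mapsTo_univ _ _⟩ (mem_univ x),
      pm_apply, h.fl, map_zero]
    simp [Num57.e2]
  refine ⟨zero_le_one, ⟨2 / 4, by norm_num, fun x => ?_⟩, fun _ _ _ => 0, 2, S.pos, (·.elim0), (·.elim0),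
    (·.elim0), (·.elim0), fun b l x => (S.ric b l x).trans (by simp; rfl), S.sc⟩
  have : 2 ≤ Wz78.sc C.yd.G x := S.cyl.sc x
  simp only [Wz78.fP, f, mul_zero, Finset.sum_const_zero, ne_eq, two_ne_zero, not_false_eq_true, zero_pow,
    Real.sqrt_zero]
  linarith

variable {Lm : LM κ lam}

/-- the model -/
theorem lc0 (hD : DeckStmt) (K : LOK Lm 4) (σ : Bool) : Lc ((Lm.N σ).cy ()) K.L.c := by
  have := Lm.M.cpt
  refine ⟨⟨K.L.ld, K.L.sj, hD _ _ _ _ _ _ K.L⟩, K.L.rc, fun y => ?_⟩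
  let U : Set ((Lm.M.bn ()).Y.M × ℝ) := {q | q.2 ∈ Ioo (-3 : ℝ) 0}
  have o : IsOpen U := isOpen_Ioo.preimage continuous_snd
  have y1 : (y, (-1 : ℝ)) ∈ U := ⟨by norm_num, by norm_num⟩
  have mj : Mp (IC (Lm.M.bn ()).Y.I) Lm.X.I U univ (Lm.M.bn ()).j :=
    ⟨fun _ _ => (Lm.M.bn ()).oe.contMDiff _, mapsTo_univ _ _⟩
  have mf : Mp (IC (Lm.M.bn ()).Y.I) (Lm.M.bn ()).Y.I U univ Prod.fst :=
    ⟨fun _ _ => contMDiffAt_fst, mapsTo_univ _ _⟩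
  have i : Line51.Iso (IC (Lm.M.bn ()).Y.I) ((L0 Lm σ).pull _ Lm.X.I (Lm.M.bn ()).j)
      (((Lm.N σ).LY ()).pull _ (Lm.M.bn ()).Y.I Prod.fst) ((Lm.N σ).m ()) U :=
    ⟨((Lm.N σ).um ()).mono fun q hq => abs_le.2 ⟨hq.1.le, by linarith [hq.2]⟩,
      fun q hq => (K.flat σ q hq.1 (by linarith [hq.2])).symm⟩
  have e := i.F_eq o ((on0 σ).pull mj) y1
  rw [((Lm.N σ).okY ()).F_pull isOpen_univ o mf y1, (on0 σ).F_pull isOpen_univ o mj y1, pm_apply (f := Band.j _),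
    F_band K σ ((Lm.M.bn ()).j_mem_sd.2 (by simp [M.pm])) ⟨_, rfl⟩, map_zero] at e
  have c := pm_comp (K := (Lm.M.bn ()).Y.I) (J := IC (Lm.M.bn ()).Y.I) (I := (Lm.M.bn ()).Y.I)
    (f := fun z => (z, (-1 : ℝ))) (g := Prod.fst) (a := ((Lm.N σ).LY ()).F (Lm.M.bn ()).Y.I) (z := y)
    mdifferentiableAt_fst (mdifferentiableAt_id.prodMk mdifferentiableAt_const)
  rw [pm_apply, e, map_zero] at c
  exact (congrFun (pm_id _) y).symm.trans c.symm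

/-- **LEAF PYL** -/
theorem pyl (H : LH Lm) (hD : DeckStmt) : PylStmt Lm := fun S D i Wi r n J hS hJ l hl => by
  obtain ⟨K, -⟩ := H.lok
  have h0 : ∀ a : Unit, ∃ cv, Lc ((Lm.N (S.sg l i)).cy a) cv := fun ⟨⟩ => ⟨_, lc0 hD K _⟩
  obtain ⟨cv, h1⟩ := h0 ((S.I ⟨l, hl⟩).f ())
  have h2 : ∃ cv, Lc ((S.N i).cy ((S.I ⟨l, hl⟩).f' ())) cv := ⟨_, (lc_iff ((S.I ⟨l, hl⟩).g ())
    ((S.I ⟨l, hl⟩).gY ()) ((hS.ins ⟨l, hl⟩ i).LY ()) ((S.N i).okY _) h1.cv4).1 h1⟩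
  obtain ⟨cv, h3⟩ := (congrArg (fun a => ∃ cv, Lc ((S.N i).cy a) cv) (hS.wall ⟨l, hl⟩)).mp h2
  have i := hJ.iso l (hS.lsp l hl)
  have h4 := (lc_iff (J.g l) i.e i.L ((S.N _).okY l) (cv4_comp (J.g l).symm h3.cv4)).2
    (by rwa [show J.g l ∘ (J.g l).symm ∘ cv = cv from funext fun y => (J.g l).apply_symm_apply _])
  exact ⟨h4.py (hJ.xs l).1, _, h4.cv4⟩

end Crest.Agent.X212.Pyl42
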